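import Vale.Agent.P024.H644.Defs

/-!
Literal statements of the blocks for all totally real fields.
-/

namespace Vale.Agent.P024.M4

open scoped NumberField
open IsDedekindDomain NumberField Vale.Agent.P024

/-- `a (g x g⁻¹) = b a(x) b⁻¹` on an open subgroup. -/
def Rel {E₁ E₂ : Type*} [Field E₁] [CharZero E₁] [Field E₂] [CharZero E₂]
    {F : IntermediateField ℚ E₁} (a : (E₁ ≃ₐ[F] E₁) →* (E₂ ≃ₐ[ℚ] E₂)) (g : E₁ ≃ₐ[ℚ] E₁)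
    (b : E₂ ≃ₐ[ℚ] E₂) : Prop :=
  ∃ H : Subgroup (E₁ ≃ₐ[ℚ] E₁), IsOpen (H : Set (E₁ ≃ₐ[ℚ] E₁)) ∧
    ∀ x y : E₁ ≃ₐ[F] E₁, x.restrictScalars ℚ ∈ H →
      y.restrictScalars ℚ = g * x.restrictScalars ℚ * g⁻¹ → a y = b * a x * b⁻¹

/-- A complex conjugation. -/
def IsCC {E : Type*} [Field E] [CharZero E] (c : E ≃ₐ[ℚ] E) : Prop :=
  ∃ φ : E →+* ℂ, ∀ x, φ (c x) = (starRingEnd ℂ) (φ x)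

/-- The group ring of `S / V` acts on the homomorphisms `θ` of `V` by `(g θ)(y) = θ(g⁻¹ y g)`. -/
noncomputable def act {S A : Type*} [Group S] [CommGroup A] {V : Subgroup S} [hV : V.Normal]
    (Y : MonoidAlgebra ℤ (S ⧸ V)) (θ : V →* A) (y : V) : A :=
  ∏ᶠ q : S ⧸ V, θ ⟨q.out⁻¹ * y * q.out, by
    have := hV.conj_mem y y.2 q.out⁻¹
    rwa [inv_inv] at this⟩ ^ (Y.coeff q)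

/-- unramified outside `p` -/
def UnrOut {E A : Type*} [Field E] [CharZero E] [Group A] {V : Subgroup (E ≃ₐ[ℚ] E)} (p : ℕ)
    (θ : V →* A) : Prop :=
  ∀ O : ValuationSubring E, O ≠ ⊤ → (p : E) ∉ O.nonunits → ∀ t : V, Stab O (t : E ≃ₐ[ℚ] E) →
    ActsPow O (t : E ≃ₐ[ℚ] E) 1 → θ t = 1

/-- a matched pair of valuation rings with their Frobenius elements -/
structure Pair {E₁ E₂ : Type*} [Field E₁] [CharZero E₁] [Field E₂] [CharZero E₂]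
    {F : IntermediateField ℚ E₁} (a : (E₁ ≃ₐ[F] E₁) →* (E₂ ≃ₐ[ℚ] E₂)) (p : ℕ)
    (O : ValuationSubring E₁) (O₂ : ValuationSubring E₂) (r r₂ : ℕ) (φ : E₁ ≃ₐ[ℚ] E₁)
    (z : E₂ ≃ₐ[ℚ] E₂) : Prop where
  ne₁ : O ≠ ⊤
  ne₂ : O₂ ≠ ⊤
  maps : ∀ s : E₁ ≃ₐ[F] E₁, Stab O s → Stab O₂ (a s)
  prime₁ : r.Prime
  prime₂ : r₂.Prime
  ne_p₁ : r ≠ p
  ne_p₂ : r₂ ≠ p
  mem₁ : (r : E₁) ∈ O.nonunits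
  mem₂ : (r₂ : E₂) ∈ O₂.nonunits
  stab₁ : Stab O φ
  stab₂ : Stab O₂ z
  acts₁ : ActsPow O φ r
  acts₂ : ActsPow O₂ z r₂

section

/-- (SPLIT1) -/
def PropSPLIT.{u} : Prop := ∀ (E : Type u) [Field E] [CharZero E] [IsAlgClosed E]
  [Algebra.IsAlgebraic ℚ E] (D : IntermediateField ℚ E) [NumberField D] (p : ℕ) [Fact p.Prime],
  p ≠ 2 → ∀ ψ : (E ≃ₐ[D] E) →* ℤ_[p]ˣ, Continuous ψ →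
  {v : HeightOneSpectrum (𝓞 D) | (Ideal.absNorm v.asIdeal).Prime ∧ TR.Kills ψ v}.Infinite →
  ∃ m : ℕ, 0 < m ∧ ∀ g, ψ g ^ m = 1

/-- (ALV) -/
def PropALV.{u, v} : Prop := ∀ (E₁ : Type u) (E₂ : Type v) [Field E₁] [CharZero E₁]
  [IsAlgClosed E₁] [Algebra.IsAlgebraic ℚ E₁] [Field E₂] [CharZero E₂] [IsGalois ℚ E₂],
  SolvablyClosed E₂ → ∀ (F : IntermediateField ℚ E₁) [NumberField F]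
  (a : (E₁ ≃ₐ[F] E₁) →* (E₂ ≃ₐ[ℚ] E₂)), Continuous a → IsOpen (Set.range a) →
  ∀ p : ℕ, p.Prime → p ≠ 2 → ∃ B : Set ℕ, B.Finite ∧ ∀ r₂ : ℕ, r₂.Prime → r₂ ∉ B →
  ∃ v ∈ Alive a p, ∃ (O : ValuationSubring E₁) (O₂ : ValuationSubring E₂), O ≠ ⊤ ∧ O₂ ≠ ⊤ ∧
    IsCenter O v ∧ (∀ s : E₁ ≃ₐ[F] E₁, Stab O s → Stab O₂ (a s)) ∧ (r₂ : E₂) ∈ O₂.nonunits

/-- (UNQ) the residue characteristic of `O₂` depends only on the alive prime -/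
def PropUNQ.{u, v} : Prop := ∀ (E₁ : Type u) (E₂ : Type v) [Field E₁] [CharZero E₁]
  [IsAlgClosed E₁] [Algebra.IsAlgebraic ℚ E₁] [Field E₂] [CharZero E₂] [IsGalois ℚ E₂],
  SolvablyClosed E₂ → ∀ (F : IntermediateField ℚ E₁) [NumberField F]
  (a : (E₁ ≃ₐ[F] E₁) →* (E₂ ≃ₐ[ℚ] E₂)), Continuous a → IsOpen (Set.range a) →
  ∀ p : ℕ, p.Prime → p ≠ 2 → ∀ v ∈ Alive a p, ∀ (O O' : ValuationSubring E₁)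
  (O₂ O₂' : ValuationSubring E₂) (r r' : ℕ), O ≠ ⊤ → O' ≠ ⊤ → O₂ ≠ ⊤ → O₂' ≠ ⊤ →
  IsCenter O v → IsCenter O' v → (∀ s : E₁ ≃ₐ[F] E₁, Stab O s → Stab O₂ (a s)) →
  (∀ s : E₁ ≃ₐ[F] E₁, Stab O' s → Stab O₂' (a s)) → r.Prime → r'.Prime →
  (r : E₂) ∈ O₂.nonunits → (r' : E₂) ∈ O₂'.nonunits → r = r'

/-- (REL) -/
def PropREL.{u, v} : Prop := ∀ (E₁ : Type u) (E₂ : Type v) [Field E₁] [CharZero E₁]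
  [IsAlgClosed E₁] [Algebra.IsAlgebraic ℚ E₁] [Field E₂] [CharZero E₂] [IsGalois ℚ E₂],
  SolvablyClosed E₂ → ∀ (F : IntermediateField ℚ E₁) [NumberField F]
  (a : (E₁ ≃ₐ[F] E₁) →* (E₂ ≃ₐ[ℚ] E₂)), Continuous a → IsOpen (Set.range a) →
  ∀ (p : ℕ) [Fact p.Prime], p ≠ 2 → ∀ (H : Subgroup (E₁ ≃ₐ[ℚ] E₁)) (V : Subgroup (E₂ ≃ₐ[ℚ] E₂))
  [hH : H.Normal] [hV : V.Normal], IsOpen (H : Set (E₁ ≃ₐ[ℚ] E₁)) →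
  IsOpen (V : Set (E₂ ≃ₐ[ℚ] E₂)) → ∀ aH : H →* V,
  (∀ x : H, ∃ s : E₁ ≃ₐ[F] E₁, s.restrictScalars ℚ = (x : E₁ ≃ₐ[ℚ] E₁) ∧
    a s = (aH x : E₂ ≃ₐ[ℚ] E₂)) →
  ∀ (f : E₁ ≃ₐ[ℚ] E₁) (z : E₂ ≃ₐ[ℚ] E₂) (e : ℕ), 0 < e → f ^ e ∈ H →
  {v : HeightOneSpectrum (𝓞 F) | ∃ O O₂ r r₂ φ ζ, IsCenter O v ∧ Pair a p O O₂ r r₂ φ ζ ∧
    φ * f⁻¹ ∈ H ∧ ζ * z⁻¹ ∈ V}.Infinite →
  ∀ θ : V →* ℤ_[p]ˣ, Continuous θ → UnrOut p θ →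
  ∃ m : ℕ, 0 < m ∧ ∀ x : H, (∏ i ∈ Finset.range e,
    (θ ⟨z⁻¹ * (aH ⟨f ^ i * x * (f ^ i)⁻¹, hH.conj_mem x x.2 (f ^ i)⟩ : E₂ ≃ₐ[ℚ] E₂) * z, by
      have := hV.conj_mem _ (aH ⟨f ^ i * x * (f ^ i)⁻¹, hH.conj_mem x x.2 (f ^ i)⟩).2 z⁻¹
      rwa [inv_inv] at this⟩ / θ (aH ⟨f ^ i * x * (f ^ i)⁻¹, hH.conj_mem x x.2 (f ^ i)⟩))) ^ m = 1

/-- (T3) -/
def PropT3.{u} : Prop := ∀ (E : Type u) [Field E] [CharZero E] [IsGalois ℚ E],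
  SolvablyClosed E → ∀ (V : Subgroup (E ≃ₐ[ℚ] E)) [V.Normal], IsOpen (V : Set (E ≃ₐ[ℚ] E)) →
  ∀ (Y : MonoidAlgebra ℤ ((E ≃ₐ[ℚ] E) ⧸ V)) (c : E ≃ₐ[ℚ] E), IsCC c →
  Y * (1 - MonoidAlgebra.of ℤ _ (c : (E ≃ₐ[ℚ] E) ⧸ V)) ≠ 0 →
  ∃ B : Set ℕ, B.Finite ∧ ∀ (p : ℕ) [Fact p.Prime], p ∉ B →
  ∃ θ : V →* ℤ_[p]ˣ, Continuous θ ∧ UnrOut p θ ∧ ¬ ∃ m : ℕ, 0 < m ∧ ∀ y : V, act Y θ y ^ m = 1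

/-- (COMM) -/
def PropCOMM.{u} : Prop := ∀ (E : Type u) [Field E] [CharZero E] [IsGalois ℚ E],
  SolvablyClosed E → ∀ W A B : Subgroup (E ≃ₐ[ℚ] E), IsOpen (W : Set (E ≃ₐ[ℚ] E)) →
  IsClosed (A : Set (E ≃ₐ[ℚ] E)) → IsClosed (B : Set (E ≃ₐ[ℚ] E)) →
  (∀ w ∈ W, ∀ x ∈ A, w * x * w⁻¹ ∈ A) → (∀ w ∈ W, ∀ x ∈ B, w * x * w⁻¹ ∈ B) →
  A ≠ ⊥ → B ≠ ⊥ → ∃ x ∈ A, ∃ y ∈ B, x * y ≠ y * x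

/-- (NRM) -/
def PropNRM.{u} : Prop := ∀ (E : Type u) [Field E] [CharZero E] [IsGalois ℚ E],
  SolvablyClosed E → ∀ W C : Subgroup (E ≃ₐ[ℚ] E), IsOpen (W : Set (E ≃ₐ[ℚ] E)) →
  IsClosed (C : Set (E ≃ₐ[ℚ] E)) → (∀ w ∈ W, ∀ x ∈ C, w * x * w⁻¹ ∈ C) → C ≠ ⊥ →
  ∃ V : Subgroup (E ≃ₐ[ℚ] E), V.Normal ∧ IsOpen (V : Set (E ≃ₐ[ℚ] E)) ∧
    ∀ (z : E ≃ₐ[ℚ] E) (t : Fin 4 → E ≃ₐ[ℚ] E), ∃ c ∈ C, ∀ (i : Fin 4) (m : ℤ),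
      (z ^ m * t i)⁻¹ * c ∉ V

/-- (NU) -/
def PropNU.{u, v} : Prop := ∀ (E₁ : Type u) (E₂ : Type v) [Field E₁] [CharZero E₁]
  [IsAlgClosed E₁] [Algebra.IsAlgebraic ℚ E₁] [Field E₂] [CharZero E₂] [IsGalois ℚ E₂],
  SolvablyClosed E₂ → ∀ (F : IntermediateField ℚ E₁) [NumberField F]
  (a : (E₁ ≃ₐ[F] E₁) →* (E₂ ≃ₐ[ℚ] E₂)), Continuous a → IsOpen (Set.range a) →
  ∀ H : Subgroup (E₁ ≃ₐ[ℚ] E₁), H.Normal → IsOpen (H : Set (E₁ ≃ₐ[ℚ] E₁)) →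
  H ≤ F.fixingSubgroup → ∀ g : E₁ ≃ₐ[ℚ] E₁,
  (∀ x y : E₁ ≃ₐ[F] E₁, x.restrictScalars ℚ ∈ H →
    y.restrictScalars ℚ = g * x.restrictScalars ℚ * g⁻¹ → a y = 1 → a x = 1) →
  ∃ b, Rel a g b

/-- (EXT) -/
def PropEXT.{u, v} : Prop := ∀ (E₁ : Type u) (E₂ : Type v) [Field E₁] [CharZero E₁]
  [IsAlgClosed E₁] [Algebra.IsAlgebraic ℚ E₁] [Field E₂] [CharZero E₂] [IsGalois ℚ E₂],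
  SolvablyClosed E₂ → ∀ (F : IntermediateField ℚ E₁) [NumberField F]
  (a : (E₁ ≃ₐ[F] E₁) →* (E₂ ≃ₐ[ℚ] E₂)), Continuous a → IsOpen (Set.range a) →
  ∀ (g : E₁ ≃ₐ[ℚ] E₁) (b : E₂ ≃ₐ[ℚ] E₂), g ∉ F.fixingSubgroup → Rel a g b →
  ∃ F₀ : IntermediateField ℚ E₁, F₀ < F ∧ ∃ a₀ : (E₁ ≃ₐ[F₀] E₁) →* (E₂ ≃ₐ[ℚ] E₂),
    Continuous a₀ ∧ IsOpen (Set.range a₀) ∧
    ∀ (x : E₁ ≃ₐ[F] E₁) (y : E₁ ≃ₐ[F₀] E₁), (∀ t, y t = x t) → a₀ y = a x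

end

end Vale.Agent.P024.M4
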