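import Vale.Agent.P024.M4.Asm5
import Vale.Agent.P024.H586.EtaF
import Vale.Agent.P024.H157.PropsExt
import Vale.Agent.P024.H74.Densm
import Vale.Agent.P024.H358.Red3

/-!
The induction, and the main theorem for the totally real fields.
-/

namespace Vale.Agent.P024.M4

open scoped NumberField Topology
open IsDedekindDomain NumberField H566

universe u v

variable {E₁ : Type u} {E₂ : Type v} [Field E₁] [CharZero E₁] [IsAlgClosed E₁]
  [Algebra.IsAlgebraic ℚ E₁] [Field E₂] [CharZero E₂] [IsGalois ℚ E₂]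

omit [IsAlgClosed E₁] [Algebra.IsAlgebraic ℚ E₁] in
/-- an automorphism over a larger field, over a smaller field -/
theorem exists_lower {F₀ F : IntermediateField ℚ E₁} (h : F₀ ≤ F) (x : E₁ ≃ₐ[F] E₁) :
    ∃ y : E₁ ≃ₐ[F₀] E₁, ∀ t, y t = x t := by
  have hy : x.restrictScalars ℚ ∈ F₀.fixingSubgroup := by
    rw [IntermediateField.mem_fixingSubgroup_iff]
    intro t ht
    exact x.commutes ⟨t, h ht⟩
  exact ⟨F₀.fixingSubgroupEquiv ⟨_, hy⟩, fun t => rfl⟩

omit [IsAlgClosed E₁] [Algebra.IsAlgebraic ℚ E₁] [CharZero E₁] in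
theorem chi_eq {K K' : Type*} [Field K] [Field K'] [Algebra K E₁] [Algebra K' E₁] (p : ℕ)
    [Fact p.Prime] (x : E₁ ≃ₐ[K] E₁) (y : E₁ ≃ₐ[K'] E₁) (h : ∀ t, y t = x t) :
    chi K E₁ p x = chi K' E₁ p y := by
  have h1 : MulSemiringAction.toRingAut (E₁ ≃ₐ[K] E₁) E₁ x =
      MulSemiringAction.toRingAut (E₁ ≃ₐ[K'] E₁) E₁ y := by
    ext t
    exact (h t).symm
  show cyclotomicCharacter E₁ p (MulSemiringAction.toRingAut (E₁ ≃ₐ[K] E₁) E₁ x) = _
  rw [h1]
  rfl

omit [IsAlgClosed E₁] [Algebra.IsAlgebraic ℚ E₁] in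
theorem numberField_le {F₀ F : IntermediateField ℚ E₁} [hF : NumberField F] (h : F₀ ≤ F) :
    NumberField F₀ := by
  have hFf : FiniteDimensional ℚ F := hF.to_finiteDimensional
  have : FiniteDimensional ℚ F₀ :=
    Module.Finite.of_injective (IntermediateField.inclusion h).toLinearMap
      (IntermediateField.inclusion h).injective
  exact H157.numberField_of F₀ this

/-- **For every number field**: for all but finitely many primes `p ≡ 1` modulo `n!` the quotient
of the cyclotomic characters has finite order. -/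
theorem eta_all (hT3 : PropT3.{v}) (hE₂ : SolvablyClosed E₂) (n : ℕ) :
    ∀ (F : IntermediateField ℚ E₁) [NumberField F], F.fixingSubgroup.index = n →
    ∀ (a : (E₁ ≃ₐ[F] E₁) →* (E₂ ≃ₐ[ℚ] E₂)), Continuous a → IsOpen (Set.range a) →
    ∃ B : Set ℕ, B.Finite ∧ ∀ (p : ℕ) [Fact p.Prime], p ∉ B →
      n.factorial ∣ p - 1 → ∃ m : ℕ, 0 < m ∧ ∀ g, eta a p g ^ m = 1 := by
  induction n using Nat.strong_induction_on with
  | _ n ih =>
    intro F hF hn a ha hopen
    by_cases hmax : ∀ g b, Rel a g b → g ∈ F.fixingSubgroup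
    · subst hn
      exact eta_of_max hT3 (fun E₁ E₂ _ _ _ _ _ _ _ hE₂ F _ a ha _ p _ hp2 hinf =>
        H586.etaF hE₂ F a ha p hp2 hinf) hE₂ F a ha hopen hmax
    · push Not at hmax
      obtain ⟨g, b, hrel, hg⟩ := hmax
      obtain ⟨F₀, hlt, a₀, ha₀, hopen₀, hext⟩ := H157.propEXT E₁ E₂ hE₂ F a ha hopen g b hg hrel
      have hNF : NumberField F₀ := numberField_le hlt.le
      have hgal : IsGalois ℚ E₁ := H157.isGalois_closed
      have hle : F.fixingSubgroup ≤ F₀.fixingSubgroup :=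
        IntermediateField.fixingSubgroup_antitone hlt.le
      have hne : F.fixingSubgroup ≠ F₀.fixingSubgroup := by
        intro h
        have h1 := congrArg IntermediateField.fixedField h
        rw [InfiniteGalois.fixedField_fixingSubgroup, InfiniteGalois.fixedField_fixingSubgroup]
          at h1
        exact hlt.ne h1.symm
      have hidx : F₀.fixingSubgroup.index < n := by
        rw [← hn]
        have : F.fixingSubgroup.FiniteIndex := ⟨index_ne_zero_of_open _ (isOpen_fix F)⟩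
        exact Subgroup.index_strictAnti (lt_of_le_of_ne hle hne)
      obtain ⟨B, hB, hB'⟩ := ih _ hidx F₀ rfl a₀ ha₀ hopen₀
      refine ⟨B, hB, fun p hp hpB hdvd => ?_⟩
      obtain ⟨m, hm, hm'⟩ := hB' p hpB ((Nat.factorial_dvd_factorial hidx.le).trans hdvd)
      refine ⟨m, hm, fun x => ?_⟩
      obtain ⟨y, hy⟩ := exists_lower hlt.le x
      have h1 : eta a p x = eta a₀ p y := by
        rw [eta_apply, eta_apply, hext x y hy, chi_eq p x y hy]
      rw [h1]
      exact hm' y

/-- **The main theorem**, given (T3). -/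
theorem main_of_T3 (hT3 : PropT3.{v}) : H358.Red.PropMAIN.{u, v} := by
  intro E₁ E₂ _ _ _ _ _ _ _ hE₂ F hF hFr a ha hopen
  have hgal : IsGalois ℚ E₁ := H157.isGalois_closed
  obtain ⟨B, hB, hB'⟩ := eta_all hT3 hE₂ _ F rfl a ha hopen
  obtain ⟨Z, i1, i2, i3, f, δ, hδ, hd⟩ := H74.densm F (F.fixingSubgroup.index.factorial)
    (Nat.factorial_pos _) B hB
  refine TR.induced_of_eta_dens (H114.solvablyClosed_of_isAlgClosed E₁) hE₂ a ha hopen Z f _ ∅
    tendsto_empty hδ hd ?_
  intro p hp hp2 hpA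
  exact hB' p hpA.2 ((Nat.modEq_iff_dvd' hp.out.one_le).1 (Nat.ModEq.symm hpA.1))

end Vale.Agent.P024.M4
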