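import Vale.Agent.P024.M4.Asm3

/-!
The case of a maximal homomorphism, second part.
-/

namespace Vale.Agent.P024.M4

open scoped NumberField Topology
open IsDedekindDomain NumberField H566

universe u v

variable {E₁ : Type u} {E₂ : Type v} [Field E₁] [CharZero E₁] [IsAlgClosed E₁]
  [Algebra.IsAlgebraic ℚ E₁] [Field E₂] [CharZero E₂] [IsGalois ℚ E₂]

omit [IsAlgClosed E₁] [Algebra.IsAlgebraic ℚ E₁] in
theorem restrictScalars_inj (F : IntermediateField ℚ E₁) :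
    Function.Injective (F.fixingSubgroup.subtype.comp (H157.toFix F)) := by
  rw [MonoidHom.coe_comp]
  exact (Subgroup.subtype_injective _).comp (H157.toFix_inj F)

/-- The last step: `z` is not a power of `z'` modulo `V`. -/
theorem fin_pair (hE₂ : SolvablyClosed E₂) (F : IntermediateField ℚ E₁) [NumberField F]
    (a : (E₁ ≃ₐ[F] E₁) →* (E₂ ≃ₐ[ℚ] E₂)) (ha : Continuous a)
    (H : Subgroup (E₁ ≃ₐ[ℚ] E₁)) [hH : H.Normal] (hHF : H ≤ F.fixingSubgroup)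
    (V : Subgroup (E₂ ≃ₐ[ℚ] E₂)) [hV : V.Normal] (hVo : IsOpen (V : Set (E₂ ≃ₐ[ℚ] E₂)))
    (aH : H →* V)
    (haH : ∀ x : H, ∃ s : E₁ ≃ₐ[F] E₁, s.restrictScalars ℚ = (x : E₁ ≃ₐ[ℚ] E₁) ∧
      a s = (aH x : E₂ ≃ₐ[ℚ] E₂))
    {p q : ℕ} [hp : Fact p.Prime] (hp2 : p ≠ 2) [hq : Fact q.Prime]
    (hVq : ∀ s ∈ V, ∀ x : E₂, x ^ q = 1 → s x = x) {k : ℕ} (hk : 2 ≤ k) (hkp : k ∣ p - 1)
    (hkq : k ∣ q - 1) (f : E₁ ≃ₐ[ℚ] E₁) (z : E₂ ≃ₐ[ℚ] E₂) (z' : E₁ ≃ₐ[F] E₁)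
    (hz' : z'.restrictScalars ℚ = f ^ k)
    (v : HeightOneSpectrum (𝓞 F)) (hv : v ∈ Alive a p) (O : ValuationSubring E₁)
    (O₂ : ValuationSubring E₂) (r r₂ : ℕ) (φ : E₁ ≃ₐ[ℚ] E₁) (ζ : E₂ ≃ₐ[ℚ] E₂)
    (hOv : IsCenter O v) (hP : Pair a p O O₂ r r₂ φ ζ) (hrq : r₂ ≠ q)
    (h2p : orderOf (r₂ : ZMod p) = p - 1) (h2q : orderOf (r₂ : ZMod q) = q - 1)
    (hφ : φ * f⁻¹ ∈ H) (hζ : ζ * z⁻¹ ∈ V) :
    (z : (E₂ ≃ₐ[ℚ] E₂) ⧸ V) ∉ Subgroup.zpowers (a z' : (E₂ ≃ₐ[ℚ] E₂) ⧸ V) := by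
  intro hz
  have hfin : Finite ((E₂ ≃ₐ[ℚ] E₂) ⧸ V) := Subgroup.quotient_finite_of_isOpen V hVo
  have hfφ : f⁻¹ * φ ∈ H := by
    have := hH.conj_mem _ hφ f⁻¹
    rwa [inv_inv, mul_assoc, inv_mul_cancel_right] at this
  have hpow := pow_mem_congr hfφ k
  -- `φ ^ k` fixes `F`
  have hφk : φ ^ k ∈ F.fixingSubgroup := by
    have h1 : f ^ k ∈ F.fixingSubgroup := by
      rw [← hz']
      exact (H157.toFix F z').2
    have := mul_mem h1 (hHF hpow)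
    rwa [mul_inv_cancel_left] at this
  let s : E₁ ≃ₐ[F] E₁ := F.fixingSubgroupEquiv ⟨φ ^ k, hφk⟩
  have hs : s.restrictScalars ℚ = φ ^ k := rfl
  -- `a z'` and `a s` agree modulo `V`
  have hzs : (a z')⁻¹ * a s ∈ V := by
    obtain ⟨w, hw, hw'⟩ := haH ⟨_, hpow⟩
    have : w = z'⁻¹ * s := by
      apply restrictScalars_inj F
      show w.restrictScalars ℚ = _
      rw [hw, map_mul, map_inv]
      show (f ^ k)⁻¹ * φ ^ k = (z'.restrictScalars ℚ)⁻¹ * s.restrictScalars ℚ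
      rw [hz', hs]
    rw [← map_inv, ← map_mul, ← this, hw']
    exact Subtype.prop _
  obtain ⟨m, hm, hm1, hm2⟩ := H114.cyc4 hE₂ F a ha hp.out hp2 hq.out v hv hOv hP hrq k s hs
  obtain ⟨ξ, hξ⟩ := (H114.exists_fix_roots hE₂ hq.out.pos).1
  rw [← mem_powers_iff_mem_zpowers] at hz
  obtain ⟨j, hj⟩ := Submonoid.mem_powers_iff _ _ |>.1 hz
  -- action on the roots of unity
  have h1 : ∀ x : E₂, x ^ q = 1 → a z' x = x ^ (r₂ ^ m) := by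
    intro x hx
    have h2 := hVq _ hzs x hx
    rw [AlgEquiv.mul_apply] at h2
    rw [← hm1 x hx]
    have h3 := congrArg (a z') h2
    rw [← AlgEquiv.mul_apply, mul_inv_cancel, AlgEquiv.one_apply] at h3
    exact h3.symm
  have h2 : ∀ x : E₂, x ^ q = 1 → z x = x ^ r₂ := by
    intro x hx
    have h3 := hVq _ hζ (z x) (by rw [← map_pow, hx, map_one])
    rw [AlgEquiv.mul_apply, ← AlgEquiv.mul_apply z⁻¹, inv_mul_cancel, AlgEquiv.one_apply] at h3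
    rw [← h3, hm2 x hx]
  have h3 : ∀ (i : ℕ) (x : E₂), x ^ q = 1 → ((a z') ^ i) x = x ^ ((r₂ ^ m) ^ i) := by
    intro i
    induction i with
    | zero => intro x _; simp
    | succ i ih =>
      intro x hx
      rw [pow_succ, AlgEquiv.mul_apply, h1 x hx, ih _ (by rw [← pow_mul, mul_comm, pow_mul, hx,
        one_pow]), ← pow_mul, pow_succ, mul_comm (r₂ ^ m)]
  have h4 : z⁻¹ * (a z') ^ j ∈ V := by
    rw [← QuotientGroup.eq, QuotientGroup.mk_pow, hj]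
  have h5 : ξ ^ ((r₂ ^ m) ^ j) = ξ ^ r₂ := by
    have hξ1 := hξ.pow_eq_one
    have h6 := hVq _ h4 ξ hξ1
    rw [AlgEquiv.mul_apply] at h6
    have h7 := congrArg z h6
    rw [← AlgEquiv.mul_apply, mul_inv_cancel, AlgEquiv.one_apply] at h7
    rw [← h3 j ξ hξ1, ← h2 ξ hξ1]
    exact h7
  have h6 : ((r₂ : ZMod q) ^ m) ^ j = (r₂ : ZMod q) := by
    rw [← Nat.cast_pow, ← Nat.cast_pow, ZMod.natCast_eq_natCast_iff]
    exact (rootPow_eq_iff_modEq hξ _ _ hq.out.pos).1 h5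
  refine H74.fin_step hk hkp hkq r r₂ h2p h2q ?_ hm j h6
  rw [Ne, ZMod.natCast_eq_zero_iff]
  intro h
  exact hP.ne_p₁ ((Nat.prime_dvd_prime_iff_eq hp.out hP.prime₁).1 h).symm

end Vale.Agent.P024.M4
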