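import Vale.Agent.P024.H566.GR
import Vale.Agent.P024.H566.Rel

/-!
Group theory for the assembly.
-/

namespace Vale.Agent.P024.M4

open Finset Subgroup

section kk

variable {Γ : Type*} [Group Γ] (G : Subgroup Γ)

open Classical in
/-- The least positive `k` with `φ ^ k ∈ G` (`0` if there is none). -/
noncomputable def kk (φ : Γ) : ℕ := if h : ∃ k, 0 < k ∧ φ ^ k ∈ G then Nat.find h else 0

variable {G}

theorem kk_spec (hG : G.index ≠ 0) (φ : Γ) : 0 < kk G φ ∧ φ ^ kk G φ ∈ G := by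
  classical
  have h : ∃ k, 0 < k ∧ φ ^ k ∈ G := by
    obtain ⟨k, h0, -, hk⟩ := Subgroup.exists_pow_mem_of_index_ne_zero hG φ
    exact ⟨k, h0, hk⟩
  unfold kk
  rw [dif_pos h]
  exact Nat.find_spec h

theorem kk_min (hG : G.index ≠ 0) (φ : Γ) {j : ℕ} (hj : 0 < j) (hj' : j < kk G φ) :
    φ ^ j ∉ G := by
  classical
  have h : ∃ k, 0 < k ∧ φ ^ k ∈ G := by
    obtain ⟨k, h0, -, hk⟩ := Subgroup.exists_pow_mem_of_index_ne_zero hG φ
    exact ⟨k, h0, hk⟩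
  unfold kk at hj'
  rw [dif_pos h] at hj'
  intro hm
  exact Nat.find_min h hj' ⟨hj, hm⟩

theorem kk_le (hG : G.index ≠ 0) (φ : Γ) : kk G φ ≤ G.index := by
  classical
  obtain ⟨k, h0, h1, hk⟩ := Subgroup.exists_pow_mem_of_index_ne_zero hG φ
  by_contra hlt
  push Not at hlt
  exact kk_min hG φ h0 (by omega) hk

theorem kk_dvd (hG : G.index ≠ 0) (φ : Γ) {p : ℕ} (h : G.index.factorial ∣ p) : kk G φ ∣ p :=
  (Nat.dvd_factorial (kk_spec hG φ).1 (kk_le hG φ)).trans h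

theorem pow_mem_congr {H : Subgroup Γ} [H.Normal] {x f : Γ} (h : x⁻¹ * f ∈ H) (j : ℕ) :
    (x ^ j)⁻¹ * f ^ j ∈ H := by
  rw [← QuotientGroup.eq] at h ⊢
  rw [QuotientGroup.mk_pow, QuotientGroup.mk_pow, h]

theorem kk_congr {H : Subgroup Γ} [H.Normal] (hG : G.index ≠ 0) (hH : H ≤ G) {x f : Γ}
    (h : x⁻¹ * f ∈ H) : kk G x = kk G f := by
  have key : ∀ {x f : Γ}, x⁻¹ * f ∈ H → kk G f ≤ kk G x := by
    intro x f h
    by_contra hlt
    push Not at hlt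
    refine kk_min hG f (kk_spec hG x).1 hlt ?_
    have h1 := G.mul_mem (kk_spec hG x).2 (hH (pow_mem_congr h (kk G x)))
    rwa [mul_inv_cancel_left] at h1
  refine le_antisymm (key ?_) (key h)
  have h2 := H.inv_mem h
  rwa [mul_inv_rev, inv_inv] at h2

end kk

section Nphi

open H566

variable {Γ S : Type*} [Group Γ] [Group S] {H₀ : Subgroup Γ} [H₀.Normal]

theorem Nphi_congr (aH : H₀ →* S) {x f : Γ} (h : x⁻¹ * f ∈ H₀) (k : ℕ) :
    Nphi aH x k = Nphi aH f k := by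
  have key : ∀ {x f : Γ}, x⁻¹ * f ∈ H₀ → Nphi aH x k ≤ Nphi aH f k := by
    intro x f h y hy
    rw [mem_Nphi] at hy ⊢
    intro j h0 hj
    have h1 := pow_mem_congr h j
    have h2 : f ^ j * (y : Γ) * (f ^ j)⁻¹ ∈ H₀ := Subgroup.Normal.conj_mem inferInstance _ y.2 _
    -- `f ^ j = (f ^ j (x ^ j)⁻¹) x ^ j`
    have h3 : f ^ j * (x ^ j)⁻¹ ∈ H₀ := by
      have := Subgroup.Normal.conj_mem (inferInstance : H₀.Normal) _ h1 (x ^ j)
      rwa [mul_inv_cancel_left] at this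
    have e : (MulAut.conjNormal (f ^ j) y : H₀)
        = ⟨_, h3⟩ * MulAut.conjNormal (x ^ j) y * (⟨_, h3⟩ : H₀)⁻¹ := by
      apply Subtype.ext
      simp only [MulAut.conjNormal_apply, Subgroup.coe_mul, Subgroup.coe_inv, mul_inv_rev,
        inv_inv, mul_assoc, inv_mul_cancel_left]
    rw [e, map_mul, map_mul, hy j h0 hj, mul_one, map_inv, mul_inv_cancel]
  refine le_antisymm (key h) (key ?_)
  have h2 := H₀.inv_mem h
  rwa [mul_inv_rev, inv_inv] at h2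

end Nphi

section Core

open MonoidAlgebra

variable {S : Type*} [Group S]

/-- The group ring step in `S / V`. -/
theorem core_grp (V : Subgroup S) [V.Normal] (C : Subgroup S) (z z' : S) (m : ℕ) (hm : 0 < m)
    (c₁ c₂ : S) (h1 : c₁ * c₁ = 1) (h2 : c₂ * c₂ = 1) (hne : c₁⁻¹ * c₂ ∉ V) (h1V : c₁ ∉ V)
    (h2V : c₂ ∉ V)
    (hC : ∀ t : Fin 4 → S, ∃ c ∈ C, ∀ (i : Fin 4) (n : ℤ), (z' ^ n * t i)⁻¹ * c ∉ V)
    (hY : ∀ c ∈ C, ∀ c' : S, (c' = c₁ ∨ c' = c₂) →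
      (of ℤ (S ⧸ V) (c : S ⧸ V) - 1) * (∑ j ∈ range m, of ℤ (S ⧸ V) (z' : S ⧸ V) ^ j) *
        (of ℤ (S ⧸ V) (z : S ⧸ V) - 1) * (1 - of ℤ (S ⧸ V) (c' : S ⧸ V)) = 0) :
    (z : S ⧸ V) ∈ zpowers (z' : S ⧸ V) := by
  have key : ∀ c' : S, (c' = c₁ ∨ c' = c₂) →
      (z : S ⧸ V) ∈ zpowers (z' : S ⧸ V) ∨ (c' : S ⧸ V) ∈ zpowers (z' : S ⧸ V) := by
    intro c' hc'
    rcases H566.gr (z : S ⧸ V) (z' : S ⧸ V) (c' : S ⧸ V) m hm (C.map (QuotientGroup.mk' V)) (by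
      rintro _ ⟨c, hc, rfl⟩
      exact hY c hc c' hc') with h | h | ⟨t, ht⟩
    · exact Or.inl h
    · exact Or.inr h
    · exfalso
      choose s hs using fun i => QuotientGroup.mk_surjective (t i)
      obtain ⟨c, hc, hc'⟩ := hC s
      obtain ⟨i, w, hw, hcw⟩ := ht c ⟨c, hc, rfl⟩
      obtain ⟨n, rfl⟩ := mem_zpowers_iff.1 hw
      refine hc' i n ?_
      rw [← QuotientGroup.eq, QuotientGroup.mk_mul, QuotientGroup.mk_zpow, hs]
      exact hcw.symm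
  rcases key c₁ (Or.inl rfl) with h | h
  · exact h
  · rcases key c₂ (Or.inr rfl) with h' | h'
    · exact h'
    · exfalso
      apply hne
      rw [← QuotientGroup.eq]
      refine H566.involution_unique h h' ?_ ?_ ?_ ?_
      · rw [← QuotientGroup.mk_mul, h1, QuotientGroup.mk_one]
      · rw [← QuotientGroup.mk_mul, h2, QuotientGroup.mk_one]
      · rwa [Ne, QuotientGroup.eq_one_iff]
      · rwa [Ne, QuotientGroup.eq_one_iff]

end Core

end Vale.Agent.P024.M4
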