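import Mathlib.NumberTheory.LSeries.PrimesInAP
import Vale.Agent.P024.M4.Asm1
import Vale.Agent.P024.H566.Rel2
import Vale.Agent.P024.H157.Claim
import Vale.Agent.P024.H409.Comm4
import Vale.Agent.P024.H95.Nrm

/-!
The choice of the normal subgroups.
-/

namespace Vale.Agent.P024.M4

open scoped NumberField Topology
open IsDedekindDomain NumberField H566

section normal

variable {S : Type*} [Group S] [TopologicalSpace S] [IsTopologicalGroup S] [CompactSpace S]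
  [T2Space S] [TotallyDisconnectedSpace S]

/-- An open subgroup contains an open normal subgroup. -/
theorem exists_open_normal (W : Subgroup S) (hW : IsOpen (W : Set S)) :
    ∃ N : Subgroup S, N.Normal ∧ IsOpen (N : Set S) ∧ N ≤ W := by
  obtain ⟨N, hN⟩ := ProfiniteGrp.exist_openNormalSubgroup_sub_open_nhds_of_one hW W.one_mem
  exact ⟨N.toSubgroup, N.isNormal', N.isOpen', hN⟩

theorem index_ne_zero_of_open (W : Subgroup S) (hW : IsOpen (W : Set S)) : W.index ≠ 0 := by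
  have := Subgroup.quotient_finite_of_isOpen _ hW
  have h1 : W.FiniteIndex := Subgroup.finiteIndex_of_finite_quotient
  exact h1.index_ne_zero

/-- Finitely many open normal subgroups have an open normal intersection. -/
theorem exists_inter {ι : Type*} [Finite ι] (N : ι → Subgroup S) (hN : ∀ i, (N i).Normal)
    (hNo : ∀ i, IsOpen (N i : Set S)) :
    ∃ V : Subgroup S, V.Normal ∧ IsOpen (V : Set S) ∧ ∀ i, V ≤ N i := by
  refine ⟨⨅ i, N i, Subgroup.normal_iInf_normal hN, ?_, fun i => iInf_le _ i⟩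
  rw [Subgroup.coe_iInf]
  exact isOpen_iInter_of_finite hNo

end normal

universe u v

variable {E₁ : Type u} {E₂ : Type v} [Field E₁] [CharZero E₁] [IsAlgClosed E₁]
  [Algebra.IsAlgebraic ℚ E₁] [Field E₂] [CharZero E₂] [IsGalois ℚ E₂]

/-- `a` on the fixing subgroup -/
noncomputable def aG {F : IntermediateField ℚ E₁} (a : (E₁ ≃ₐ[F] E₁) →* (E₂ ≃ₐ[ℚ] E₂)) :
    F.fixingSubgroup →* (E₂ ≃ₐ[ℚ] E₂) :=
  a.comp F.fixingSubgroupEquiv.toMonoidHom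

/-- the groups `C_φ` -/
noncomputable def CC {F : IntermediateField ℚ E₁} (a : (E₁ ≃ₐ[F] E₁) →* (E₂ ≃ₐ[ℚ] E₂))
    {H₀ : Subgroup (E₁ ≃ₐ[ℚ] E₁)} [H₀.Normal] (h₀ : H₀ ≤ F.fixingSubgroup) (φ : E₁ ≃ₐ[ℚ] E₁)
    (k : ℕ) : Subgroup (E₂ ≃ₐ[ℚ] E₂) :=
  (Nphi (resH h₀ (aG a)) φ k).map (resH h₀ (aG a))

theorem isOpen_fix (F : IntermediateField ℚ E₁) [hF : NumberField F] :
    IsOpen (F.fixingSubgroup : Set (E₁ ≃ₐ[ℚ] E₁)) := by
  have : IsGalois ℚ E₁ := H157.isGalois_closed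
  have hFf : FiniteDimensional ℚ F := hF.to_finiteDimensional
  exact IntermediateField.fixingSubgroup_isOpen F

/-- The choice of `V`. -/
theorem exists_V (hE₂ : SolvablyClosed E₂) (F : IntermediateField ℚ E₁) [NumberField F]
    (a : (E₁ ≃ₐ[F] E₁) →* (E₂ ≃ₐ[ℚ] E₂)) (ha : Continuous a) (hopen : IsOpen (Set.range a))
    (hmax : ∀ g b, Rel a g b → g ∈ F.fixingSubgroup)
    (H₀ : Subgroup (E₁ ≃ₐ[ℚ] E₁)) [hH₀ : H₀.Normal] (hHo : IsOpen (H₀ : Set (E₁ ≃ₐ[ℚ] E₁)))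
    (h₀ : H₀ ≤ F.fixingSubgroup) (V₁ : Subgroup (E₂ ≃ₐ[ℚ] E₂)) [hV₁ : V₁.Normal]
    (hV₁o : IsOpen (V₁ : Set (E₂ ≃ₐ[ℚ] E₂))) :
    ∃ V : Subgroup (E₂ ≃ₐ[ℚ] E₂), V.Normal ∧ IsOpen (V : Set (E₂ ≃ₐ[ℚ] E₂)) ∧ V ≤ V₁ ∧
      ∀ f : E₁ ≃ₐ[ℚ] E₁, 2 ≤ kk F.fixingSubgroup f → ∀ (z : E₂ ≃ₐ[ℚ] E₂)
        (t : Fin 4 → E₂ ≃ₐ[ℚ] E₂), ∃ c ∈ CC a h₀ f (kk F.fixingSubgroup f),
        ∀ (i : Fin 4) (m : ℤ), (z ^ m * t i)⁻¹ * c ∉ V := by
  classical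
  have hgal : IsGalois ℚ E₁ := H157.isGalois_closed
  have hindex := index_ne_zero_of_open _ (isOpen_fix F)
  have hfin : Finite ((E₁ ≃ₐ[ℚ] E₁) ⧸ H₀) := Subgroup.quotient_finite_of_isOpen H₀ hHo
  have key : ∀ q : (E₁ ≃ₐ[ℚ] E₁) ⧸ H₀, ∃ V : Subgroup (E₂ ≃ₐ[ℚ] E₂), V.Normal ∧
      IsOpen (V : Set (E₂ ≃ₐ[ℚ] E₂)) ∧ (2 ≤ kk F.fixingSubgroup q.out → ∀ (z : E₂ ≃ₐ[ℚ] E₂)
        (t : Fin 4 → E₂ ≃ₐ[ℚ] E₂), ∃ c ∈ CC a h₀ q.out (kk F.fixingSubgroup q.out),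
        ∀ (i : Fin 4) (m : ℤ), (z ^ m * t i)⁻¹ * c ∉ V) := by
    intro q
    by_cases hq : 2 ≤ kk F.fixingSubgroup q.out
    · obtain ⟨h1, h2, h3, h4⟩ := H157.claim_field H409.propCOMM hE₂ F a ha hopen hmax H₀ hHo h₀
        q.out (kk F.fixingSubgroup q.out) hq (fun j h0 hj => kk_min hindex q.out h0 hj)
        (resH h₀ (aG a)) rfl
      obtain ⟨V, hV, hVo, hV'⟩ := H95.nrm (S := E₂ ≃ₐ[ℚ] E₂) (by
        intro W A hW hA hWA hAA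
        by_contra hA1
        obtain ⟨x, hx, y, hy, hxy⟩ := H409.propCOMM E₂ hE₂ W A A hW hA hA hWA hWA hA1 hA1
        exact hxy (hAA x hx y hy)) _ _ h1 h3 h4
      exact ⟨V, hV, hVo, fun _ z t => hV' z t⟩
    · exact ⟨⊤, inferInstance, isOpen_univ, fun h => absurd h hq⟩
  choose N hN hNo hN' using key
  obtain ⟨V₂, hV₂, hV₂o, hle⟩ := exists_inter N hN hNo
  refine ⟨V₁ ⊓ V₂, inferInstance, hV₁o.inter hV₂o, inf_le_left, ?_⟩
  intro f hf z t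
  have hfq : ((f : (E₁ ≃ₐ[ℚ] E₁) ⧸ H₀).out)⁻¹ * f ∈ H₀ := by
    rw [← QuotientGroup.eq, QuotientGroup.out_eq']
  have hk : kk F.fixingSubgroup (f : (E₁ ≃ₐ[ℚ] E₁) ⧸ H₀).out = kk F.fixingSubgroup f :=
    kk_congr hindex h₀ hfq
  obtain ⟨c, hc, hc'⟩ := hN' (f : (E₁ ≃ₐ[ℚ] E₁) ⧸ H₀) (by rw [hk]; exact hf) z t
  refine ⟨c, ?_, fun i m h => hc' i m (hle _ h.2)⟩
  rw [hk] at hc
  unfold CC at hc ⊢
  rwa [Nphi_congr (resH h₀ (aG a)) hfq] at hc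

/-- The choice of `H`. -/
theorem exists_H (F : IntermediateField ℚ E₁) [NumberField F]
    (a : (E₁ ≃ₐ[F] E₁) →* (E₂ ≃ₐ[ℚ] E₂)) (ha : Continuous a) (hopen : IsOpen (Set.range a))
    (H₀ : Subgroup (E₁ ≃ₐ[ℚ] E₁)) (hHo : IsOpen (H₀ : Set (E₁ ≃ₐ[ℚ] E₁)))
    (h₀ : H₀ ≤ F.fixingSubgroup) (V : Subgroup (E₂ ≃ₐ[ℚ] E₂))
    (hVo : IsOpen (V : Set (E₂ ≃ₐ[ℚ] E₂))) :
    ∃ H : Subgroup (E₁ ≃ₐ[ℚ] E₁), H.Normal ∧ IsOpen (H : Set (E₁ ≃ₐ[ℚ] E₁)) ∧ H ≤ H₀ ∧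
      ∃ aH : H →* V, (∀ x : H, ∃ s : E₁ ≃ₐ[F] E₁, s.restrictScalars ℚ = (x : E₁ ≃ₐ[ℚ] E₁) ∧
        a s = (aH x : E₂ ≃ₐ[ℚ] E₂)) ∧ aH.range.index ≠ 0 := by
  have hgal : IsGalois ℚ E₁ := H157.isGalois_closed
  have hFo := isOpen_fix F
  have hca' : Continuous (aG a) := ha.comp (H157.continuous_fixEquiv F)
  have hra' : IsOpen (Set.range (aG a)) := by
    have : Set.range (aG a) = Set.range a := by
      ext y
      constructor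
      · rintro ⟨x, rfl⟩
        exact ⟨_, rfl⟩
      · rintro ⟨x, rfl⟩
        exact ⟨F.fixingSubgroupEquiv.symm x, congrArg a (F.fixingSubgroupEquiv.apply_symm_apply x)⟩
    rw [this]
    exact hopen
  have hU : IsOpen ((V.comap (aG a)).map F.fixingSubgroup.subtype : Set (E₁ ≃ₐ[ℚ] E₁)) := by
    rw [Subgroup.coe_map]
    exact hFo.isOpenMap_subtype_val _ (hVo.preimage hca')
  obtain ⟨H, hH, hHo', hle⟩ := exists_open_normal (H₀ ⊓ (V.comap (aG a)).map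
    F.fixingSubgroup.subtype) (hHo.inter hU)
  have hHF : H ≤ F.fixingSubgroup := fun x hx => h₀ (hle hx).1
  have hHV : ∀ x : H, aG a ⟨x, hHF x.2⟩ ∈ V := by
    intro x
    obtain ⟨y, hy, hyx⟩ := (hle x.2).2
    have : (⟨x, hHF x.2⟩ : F.fixingSubgroup) = y := Subtype.ext hyx.symm
    rw [this]
    exact hy
  refine ⟨H, hH, hHo', fun x hx => (hle hx).1,
    ((aG a).comp (Subgroup.inclusion hHF)).codRestrict V hHV, ?_, ?_⟩
  · intro x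
    exact ⟨F.fixingSubgroupEquiv ⟨x, hHF x.2⟩, rfl, rfl⟩
  · have h1 : IsOpen (((aG a).comp (Subgroup.inclusion hHF)).range : Set (E₂ ≃ₐ[ℚ] E₂)) := by
      have h1 := H157.img_open _ hFo (aG a) hca' hra' H hHo' hHF
      convert h1 using 1
      ext y
      constructor
      · rintro ⟨x, rfl⟩
        exact ⟨Subgroup.inclusion hHF x, x.2, rfl⟩
      · rintro ⟨x, hx, rfl⟩
        exact ⟨⟨x, hx⟩, rfl⟩
    have h2 := index_ne_zero_of_open _ h1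
    intro h3
    apply h2
    have h4 : (((aG a).comp (Subgroup.inclusion hHF)).codRestrict V hHV).range.map V.subtype =
        ((aG a).comp (Subgroup.inclusion hHF)).range := by
      ext y
      constructor
      · rintro ⟨_, ⟨x, rfl⟩, rfl⟩
        exact ⟨x, rfl⟩
      · rintro ⟨x, rfl⟩
        exact ⟨_, ⟨x, rfl⟩, rfl⟩
    rw [← h4, Subgroup.index_map_subtype, h3, zero_mul]

end Vale.Agent.P024.M4
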