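import Vale.Agent.P024.M4.Asm2
import Vale.Agent.P024.H244.REL
import Vale.Agent.P024.H114.Alv3
import Vale.Agent.P024.H114.Cyc4
import Vale.Agent.P024.H252.CC2
import Vale.Agent.P024.H74.Fin
import Vale.Agent.P024.H379.Deg1

/-!
The case of a maximal homomorphism.
-/

namespace Vale.Agent.P024.M4

open scoped NumberField Topology
open IsDedekindDomain NumberField H566

universe u v

/-- (ETAF) -/
def PropETAF : Prop := ∀ (E₁ : Type u) (E₂ : Type v) [Field E₁] [CharZero E₁]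
  [IsAlgClosed E₁] [Algebra.IsAlgebraic ℚ E₁] [Field E₂] [CharZero E₂] [IsGalois ℚ E₂],
  SolvablyClosed E₂ → ∀ (F : IntermediateField ℚ E₁) [NumberField F]
  (a : (E₁ ≃ₐ[F] E₁) →* (E₂ ≃ₐ[ℚ] E₂)), Continuous a → IsOpen (Set.range a) →
  ∀ (p : ℕ) [Fact p.Prime], p ≠ 2 →
  {v : HeightOneSpectrum (𝓞 F) | (Ideal.absNorm v.asIdeal).Prime ∧ v ∈ Alive a p}.Infinite →
  ∃ m : ℕ, 0 < m ∧ ∀ g, eta a p g ^ m = 1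

variable {E₁ : Type u} {E₂ : Type v} [Field E₁] [CharZero E₁] [IsAlgClosed E₁]
  [Algebra.IsAlgebraic ℚ E₁] [Field E₂] [CharZero E₂] [IsGalois ℚ E₂]

/-- the element of the group ring -/
noncomputable def Yel {G : Type*} [Group G] (m : ℕ) (c z' z : G) : MonoidAlgebra ℤ G :=
  (MonoidAlgebra.of ℤ G c - 1) * (∑ j ∈ Finset.range m, MonoidAlgebra.of ℤ G z' ^ j) *
    (MonoidAlgebra.of ℤ G z - 1)

/-- The finite set of exceptions from (T3). -/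
theorem exists_bad (hT3 : PropT3.{v}) (hE₂ : SolvablyClosed E₂) (V : Subgroup (E₂ ≃ₐ[ℚ] E₂))
    [hV : V.Normal] (hVo : IsOpen (V : Set (E₂ ≃ₐ[ℚ] E₂))) (m : ℕ) (c₁ c₂ : E₂ ≃ₐ[ℚ] E₂)
    (h1 : IsCC c₁) (h2 : IsCC c₂) :
    ∃ B : Set ℕ, B.Finite ∧ ∀ (p : ℕ) [Fact p.Prime], p ∉ B →
      ∀ (c z' z : (E₂ ≃ₐ[ℚ] E₂) ⧸ V) (c' : E₂ ≃ₐ[ℚ] E₂), (c' = c₁ ∨ c' = c₂) →
      Yel m c z' z * (1 - MonoidAlgebra.of ℤ _ (c' : (E₂ ≃ₐ[ℚ] E₂) ⧸ V)) ≠ 0 →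
      ∃ θ : V →* ℤ_[p]ˣ, Continuous θ ∧ UnrOut p θ ∧
        ¬ ∃ m' : ℕ, 0 < m' ∧ ∀ y : V, act (Yel m c z' z) θ y ^ m' = 1 := by
  classical
  have hfin : Finite ((E₂ ≃ₐ[ℚ] E₂) ⧸ V) := Subgroup.quotient_finite_of_isOpen V hVo
  have key : ∀ (t : ((E₂ ≃ₐ[ℚ] E₂) ⧸ V) × ((E₂ ≃ₐ[ℚ] E₂) ⧸ V) × ((E₂ ≃ₐ[ℚ] E₂) ⧸ V))
      (i : Bool), ∃ B : Set ℕ, B.Finite ∧ ∀ (p : ℕ) [Fact p.Prime], p ∉ B →
      Yel m t.1 t.2.1 t.2.2 *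
        (1 - MonoidAlgebra.of ℤ _ (((if i then c₁ else c₂) : E₂ ≃ₐ[ℚ] E₂) :
          (E₂ ≃ₐ[ℚ] E₂) ⧸ V)) ≠ 0 →
      ∃ θ : V →* ℤ_[p]ˣ, Continuous θ ∧ UnrOut p θ ∧
        ¬ ∃ m' : ℕ, 0 < m' ∧ ∀ y : V, act (Yel m t.1 t.2.1 t.2.2) θ y ^ m' = 1 := by
    intro t i
    by_cases h0 : Yel m t.1 t.2.1 t.2.2 *
        (1 - MonoidAlgebra.of ℤ _ (((if i then c₁ else c₂) : E₂ ≃ₐ[ℚ] E₂) :
          (E₂ ≃ₐ[ℚ] E₂) ⧸ V)) = 0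
    · exact ⟨∅, Set.finite_empty, fun p _ _ h => absurd h0 h⟩
    · obtain ⟨B, hB, hB'⟩ := hT3 E₂ hE₂ V hVo (Yel m t.1 t.2.1 t.2.2) (if i then c₁ else c₂)
        (by split_ifs <;> assumption) h0
      exact ⟨B, hB, fun p hp hpB _ => hB' p hpB⟩
  choose B hB hB' using key
  refine ⟨⋃ t, ⋃ i, B t i, Set.finite_iUnion fun t => Set.finite_iUnion fun i => hB t i, ?_⟩
  intro p hp hpB c z' z c' hc' hne
  have hpB' : ∀ t i, p ∉ B t i := fun t i h => hpB (Set.mem_iUnion₂.2 ⟨t, i, h⟩)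
  rcases hc' with rfl | rfl
  · exact hB' (c, z', z) true p (hpB' _ _) hne
  · exact hB' (c, z', z) false p (hpB' _ _) hne

end Vale.Agent.P024.M4
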