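import Vale.Agent.P024.M4.Asm4

/-!
The case of a maximal homomorphism, third part.
-/

namespace Vale.Agent.P024.M4

open scoped NumberField Topology
open IsDedekindDomain NumberField H566

universe u v

variable {E₁ : Type u} {E₂ : Type v} [Field E₁] [CharZero E₁] [IsAlgClosed E₁]
  [Algebra.IsAlgebraic ℚ E₁] [Field E₂] [CharZero E₂] [IsGalois ℚ E₂]

/-- For a maximal homomorphism the quotient of the cyclotomic characters has finite order. -/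
theorem eta_of_max (hT3 : PropT3.{v}) (hETA : PropETAF.{u, v}) (hE₂ : SolvablyClosed E₂)
    (F : IntermediateField ℚ E₁) [NumberField F]
    (a : (E₁ ≃ₐ[F] E₁) →* (E₂ ≃ₐ[ℚ] E₂)) (ha : Continuous a) (hopen : IsOpen (Set.range a))
    (hmax : ∀ g b, Rel a g b → g ∈ F.fixingSubgroup) :
    ∃ B : Set ℕ, B.Finite ∧ ∀ (p : ℕ) [Fact p.Prime], p ∉ B →
      F.fixingSubgroup.index.factorial ∣ p - 1 → ∃ m : ℕ, 0 < m ∧ ∀ g, eta a p g ^ m = 1 := by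
  classical
  have hgal : IsGalois ℚ E₁ := H157.isGalois_closed
  have hFo := isOpen_fix F
  have hindex := index_ne_zero_of_open _ hFo
  -- the auxiliary prime
  obtain ⟨q, hq, -, hqmod⟩ := Nat.exists_prime_gt_modEq_one
    (k := F.fixingSubgroup.index.factorial) 0 (Nat.factorial_ne_zero _)
  have hqf : Fact q.Prime := ⟨hq⟩
  have hqdvd : F.fixingSubgroup.index.factorial ∣ q - 1 :=
    (Nat.modEq_iff_dvd' hq.one_le).1 hqmod.symm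
  -- the complex conjugations
  obtain ⟨c₁, c₂, hc₁, hc₂, hne⟩ := H252.cc2 hE₂
  obtain ⟨h11, h12⟩ := H252.cc_sq hE₂ hc₁
  obtain ⟨h21, h22⟩ := H252.cc_sq hE₂ hc₂
  obtain ⟨W, hWn, hWo, hW⟩ := H95.exists_normal_finset
    ({c₁, c₂, c₁⁻¹ * c₂} : Finset (E₂ ≃ₐ[ℚ] E₂)) (by
      simp only [Finset.mem_insert, Finset.mem_singleton, not_or]
      refine ⟨h12.symm, h22.symm, ?_⟩
      rw [eq_comm, inv_mul_eq_one]
      exact hne)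
  have hW1 : c₁ ∉ W := hW _ (by simp)
  have hW2 : c₂ ∉ W := hW _ (by simp)
  have hW3 : c₁⁻¹ * c₂ ∉ W := hW _ (by simp)
  obtain ⟨-, V₀, hV₀n, hV₀o, hV₀⟩ := H114.exists_fix_roots hE₂ hq.pos
  -- `H₀`, `V`, `H`
  obtain ⟨H₀, hH₀n, hH₀o, h₀⟩ := exists_open_normal _ hFo
  have hVW : (W ⊓ V₀).Normal := inferInstance
  obtain ⟨V, hVn, hVo, hVle, hV⟩ := exists_V hE₂ F a ha hopen hmax H₀ hH₀o h₀ (W ⊓ V₀)
    (hWo.inter hV₀o)
  obtain ⟨H, hHn, hHo, hHle, aH, haH, hindexH⟩ := exists_H F a ha hopen H₀ hH₀o h₀ V hVo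
  have hHF : H ≤ F.fixingSubgroup := hHle.trans h₀
  obtain ⟨m₁, hm₁, hm₁'⟩ := exists_pow_mem H (index_ne_zero_of_open _ hHo)
  obtain ⟨B, hB, hB'⟩ := exists_bad hT3 hE₂ V hVo m₁ c₁ c₂ hc₁ hc₂
  refine ⟨B ∪ {2, q}, hB.union (Set.toFinite _), ?_⟩
  intro p hp hpB hpdvd
  have hpB1 : p ∉ B := fun h => hpB (Or.inl h)
  have hp2 : p ≠ 2 := fun h => hpB (Or.inr (Or.inl h))
  have hpq : p ≠ q := fun h => hpB (Or.inr (Or.inr h))
  obtain ⟨f, z, hinf⟩ := H114.alv3 hE₂ F a ha hopen hp.out hp2 hq hpq H hHo V hVo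
  by_cases hk : 2 ≤ kk F.fixingSubgroup f
  · -- impossible
    exfalso
    set k := kk F.fixingSubgroup f with hkdef
    obtain ⟨hk0, hkmem⟩ := kk_spec hindex f
    rw [← hkdef] at hk0 hkmem
    let z' : E₁ ≃ₐ[F] E₁ := F.fixingSubgroupEquiv ⟨f ^ k, hkmem⟩
    have hz' : z'.restrictScalars ℚ = f ^ k := rfl
    have hfk : f ^ (k * m₁) ∈ H := by
      rw [pow_mul]
      exact hm₁' _
    have hREL := H244.Kill.propREL E₁ E₂ hE₂ F a ha hopen p hp2 H V hHo hVo aH haH f z (k * m₁)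
      (Nat.mul_pos hk0 hm₁) hfk (hinf.mono (by
        rintro v ⟨-, O, O₂, r, r₂, φ, ζ, h1, h2, -, -, -, h3, h4⟩
        exact ⟨O, O₂, r, r₂, φ, ζ, h1, h2, h3, h4⟩))
    have hact : ∀ c ∈ CC a h₀ f k, ∀ θ : V →* ℤ_[p]ˣ, Continuous θ → UnrOut p θ →
        ∃ M : ℕ, 0 < M ∧ ∀ y : V, act (Yel m₁ (c : (E₂ ≃ₐ[ℚ] E₂) ⧸ V)
          (a z' : (E₂ ≃ₐ[ℚ] E₂) ⧸ V) (z : (E₂ ≃ₐ[ℚ] E₂) ⧸ V)) θ y ^ M = 1 := by
      rintro c ⟨n, hn, rfl⟩ θ hθ hθ'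
      let n' : E₁ ≃ₐ[F] E₁ := F.fixingSubgroupEquiv ⟨n, h₀ n.2⟩
      have hn' : a n' = resH h₀ (aG a) n := rfl
      rw [← hn']
      refine H566.rel_act (ι := F.fixingSubgroup.subtype.comp (H157.toFix F)) (a := a) (f := f)
        (restrictScalars_inj F) haH hindexH hk0 hfk (z' := z') hz' z θ (hREL θ hθ hθ') (n := n') ?_
      intro j hj0 hjk
      have h1 := (mem_Nphi.1 hn) j hj0 hjk
      refine ⟨F.fixingSubgroupEquiv ⟨_, h₀ (MulAut.conjNormal (f ^ j) n : H₀).2⟩, rfl, h1⟩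
    have hzero : ∀ c ∈ CC a h₀ f k, ∀ c' : E₂ ≃ₐ[ℚ] E₂, (c' = c₁ ∨ c' = c₂) →
        Yel m₁ (c : (E₂ ≃ₐ[ℚ] E₂) ⧸ V) (a z' : (E₂ ≃ₐ[ℚ] E₂) ⧸ V) (z : (E₂ ≃ₐ[ℚ] E₂) ⧸ V) *
          (1 - MonoidAlgebra.of ℤ _ (c' : (E₂ ≃ₐ[ℚ] E₂) ⧸ V)) = 0 := by
      intro c hc c' hc'
      by_contra hne0
      obtain ⟨θ, hθ, hθ', hθ''⟩ := hB' p hpB1 _ _ _ c' hc' hne0
      exact hθ'' (hact c hc θ hθ hθ')
    have hcore := core_grp V (CC a h₀ f k) z (a z') m₁ hm₁ c₁ c₂ h11 h21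
      (fun h => hW3 (hVle h).1) (fun h => hW1 (hVle h).1) (fun h => hW2 (hVle h).1)
      (fun t => hV f hk (a z') t) hzero
    obtain ⟨v, hv, O, O₂, r, r₂, φ, ζ, hOv, hP, hrq, h2p, h2q, hφ, hζ⟩ := hinf.nonempty
    exact fin_pair hE₂ F a ha H hHF V hVo aH haH hp2
      (fun s hs x hx => (hV₀ s).1 (hVle hs).2 x hx) hk (kk_dvd hindex f hpdvd)
      (kk_dvd hindex f hqdvd) f z z' hz' v hv O O₂ r r₂ φ ζ hOv hP hrq h2p h2q hφ hζ hcore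
  · -- degree one
    obtain ⟨hk0, hkmem⟩ := kk_spec hindex f
    have hk1 : kk F.fixingSubgroup f = 1 := by omega
    rw [hk1, pow_one] at hkmem
    refine hETA E₁ E₂ hE₂ F a ha hopen p hp2 (hinf.mono ?_)
    rintro v ⟨hv, O, O₂, r, r₂, φ, ζ, hOv, hP, -, -, -, hφ, -⟩
    refine ⟨H379.deg1_prime F O v hOv φ ?_ r hP.prime₁ hP.mem₁ hP.acts₁, hv⟩
    have := mul_mem (hHF hφ) hkmem
    rwa [inv_mul_cancel_right] at this

end Vale.Agent.P024.M4
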